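import Vale.Agent.Lib.P356.helper23.Defs

/-!
The entanglement entropy of a unit vector across a cut is at most the logarithm of the rank of
its coefficient matrix across the cut.
-/

namespace Vale.Agent.Lib.P356.H68

open Matrix
open Vale.Agent.Lib.P356

theorem sum_negMulLog_le {n : Type*} [Fintype n] (lam : n → ℝ) (h0 : ∀ i, 0 ≤ lam i)
    (h1 : ∑ i, lam i = 1) :
    ∑ i, Real.negMulLog (lam i) ≤ Real.log (Fintype.card {i // lam i ≠ 0}) := by
  classical
  have hcard : Fintype.card {i // lam i ≠ 0}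
      = (Finset.univ.filter (fun i => lam i ≠ 0)).card := Fintype.card_subtype _
  rw [hcard]
  have hzero : ∀ i, i ∉ Finset.univ.filter (fun i => lam i ≠ 0) → lam i = 0 := by
    intro i hi
    by_contra hne
    exact hi (Finset.mem_filter.mpr ⟨Finset.mem_univ i, hne⟩)
  have hsumS : ∑ i ∈ Finset.univ.filter (fun i => lam i ≠ 0), lam i = 1 := by
    rw [← h1]
    exact Finset.sum_subset (Finset.filter_subset _ _) (fun i _ hi => hzero i hi)
  have hent : ∑ i, Real.negMulLog (lam i)
      = ∑ i ∈ Finset.univ.filter (fun i => lam i ≠ 0), Real.negMulLog (lam i) := by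
    symm
    refine Finset.sum_subset (Finset.filter_subset _ _) (fun i _ hi => ?_)
    rw [hzero i hi, Real.negMulLog_zero]
  have hne : (Finset.univ.filter (fun i => lam i ≠ 0)).Nonempty := by
    by_contra hemp
    rw [Finset.not_nonempty_iff_eq_empty] at hemp
    rw [hemp, Finset.sum_empty] at hsumS
    exact zero_ne_one hsumS
  have hk : (0 : ℝ) < ((Finset.univ.filter (fun i => lam i ≠ 0)).card : ℝ) := by
    exact_mod_cast hne.card_pos
  have hk1 : (0 : ℝ) < 1 / ((Finset.univ.filter (fun i => lam i ≠ 0)).card : ℝ) :=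
    one_div_pos.mpr hk
  have hw : ∑ _i ∈ Finset.univ.filter (fun i => lam i ≠ 0),
      (1 : ℝ) / ((Finset.univ.filter (fun i => lam i ≠ 0)).card : ℝ) = 1 := by
    rw [Finset.sum_const, nsmul_eq_mul, mul_one_div, div_self (ne_of_gt hk)]
  have hJ := Real.concaveOn_negMulLog.le_map_sum
    (t := Finset.univ.filter (fun i => lam i ≠ 0))
    (w := fun _ => (1 : ℝ) / ((Finset.univ.filter (fun i => lam i ≠ 0)).card : ℝ)) (p := lam)
    (fun i _ => hk1.le) hw (fun i _ => h0 i)
  simp only [smul_eq_mul] at hJ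
  rw [← Finset.mul_sum, ← Finset.mul_sum, hsumS, mul_one] at hJ
  have hval : Real.negMulLog (1 / ((Finset.univ.filter (fun i => lam i ≠ 0)).card : ℝ))
      = 1 / ((Finset.univ.filter (fun i => lam i ≠ 0)).card : ℝ)
        * Real.log ((Finset.univ.filter (fun i => lam i ≠ 0)).card : ℝ) := by
    rw [Real.negMulLog, one_div, Real.log_inv]
    ring
  rw [hval] at hJ
  rw [hent]
  exact le_of_mul_le_mul_left hJ hk1

section Cut

variable {Λ : Type*} [Fintype Λ] [DecidableEq Λ] {q : ℕ}

/-- Gluing a configuration on `A` and a configuration off `A` is a bijection onto all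
configurations. -/
def glueEquiv (A : Finset Λ) :
    (({x // x ∈ A} → Fin q) × ({x // x ∉ A} → Fin q)) ≃ Conf Λ q where
  toFun p := glue A p.1 p.2
  invFun σ := (fun x => σ x.1, fun x => σ x.1)
  left_inv := by
    intro p
    apply Prod.ext
    · funext x
      show glue A p.1 p.2 x.1 = p.1 x
      unfold glue
      rw [dif_pos x.2]
    · funext x
      show glue A p.1 p.2 x.1 = p.2 x
      unfold glue
      rw [dif_neg x.2]
  right_inv := by
    intro σ
    funext x
    show glue A (fun x => σ x.1) (fun x => σ x.1) x = σ x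
    unfold glue
    by_cases h : x ∈ A
    · rw [dif_pos h]
    · rw [dif_neg h]

theorem sum_glue (A : Finset Λ) (g : Conf Λ q → ℝ) :
    ∑ a : {x // x ∈ A} → Fin q, ∑ b : {x // x ∉ A} → Fin q, g (glue A a b) = ∑ σ, g σ := by
  calc ∑ a : {x // x ∈ A} → Fin q, ∑ b : {x // x ∉ A} → Fin q, g (glue A a b)
      = ∑ p : ({x // x ∈ A} → Fin q) × ({x // x ∉ A} → Fin q), g (glue A p.1 p.2) :=
        (Fintype.sum_prod_type' (fun a b => g (glue A a b))).symm
    _ = ∑ σ, g σ := Equiv.sum_comp (glueEquiv A) g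

theorem trace_reduced (A : Finset Λ) (Ω : Conf Λ q → ℂ) (hnorm : ∑ σ, ‖Ω σ‖ ^ 2 = 1) :
    (reduced A Ω).trace = 1 := by
  calc (reduced A Ω).trace
      = ∑ a, ∑ b, cutMatrix A Ω a b * star (cutMatrix A Ω a b) := by
        unfold reduced
        rw [Matrix.trace]
        refine Finset.sum_congr rfl (fun a _ => ?_)
        rw [Matrix.diag_apply, Matrix.mul_apply]
        refine Finset.sum_congr rfl (fun b _ => ?_)
        rw [Matrix.conjTranspose_apply]
    _ = ∑ a : {x // x ∈ A} → Fin q, ∑ b : {x // x ∉ A} → Fin q,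
          ((‖Ω (glue A a b)‖ ^ 2 : ℝ) : ℂ) := by
        refine Finset.sum_congr rfl (fun a _ => Finset.sum_congr rfl (fun b _ => ?_))
        show Ω (glue A a b) * star (Ω (glue A a b)) = _
        rw [Complex.star_def, Complex.mul_conj, Complex.normSq_eq_norm_sq]
    _ = ((∑ a : {x // x ∈ A} → Fin q, ∑ b : {x // x ∉ A} → Fin q,
          ‖Ω (glue A a b)‖ ^ 2 : ℝ) : ℂ) := by
        rw [Complex.ofReal_sum]
        refine Finset.sum_congr rfl (fun a _ => ?_)
        rw [Complex.ofReal_sum]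
    _ = 1 := by
        rw [sum_glue A (fun σ => ‖Ω σ‖ ^ 2), hnorm, Complex.ofReal_one]

theorem entropy_le_log_rank (A : Finset Λ) (Ω : Conf Λ q → ℂ) (hnorm : ∑ σ, ‖Ω σ‖ ^ 2 = 1) :
    entropy A Ω ≤ Real.log ((cutMatrix A Ω).rank : ℝ) := by
  have hρ := reduced_isHermitian A Ω
  have h0 : ∀ i, 0 ≤ hρ.eigenvalues i :=
    fun i => Matrix.eigenvalues_self_mul_conjTranspose_nonneg (cutMatrix A Ω) i
  have h1 : ∑ i, hρ.eigenvalues i = 1 := by
    have h := hρ.trace_eq_sum_eigenvalues
    rw [trace_reduced A Ω hnorm] at h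
    have h' : ((∑ i, hρ.eigenvalues i : ℝ) : ℂ) = ((1 : ℝ) : ℂ) := by
      rw [Complex.ofReal_sum, Complex.ofReal_one]
      exact h.symm
    exact Complex.ofReal_injective h'
  have hrank : Fintype.card {i // hρ.eigenvalues i ≠ 0} = (cutMatrix A Ω).rank := by
    rw [← hρ.rank_eq_card_non_zero_eigs]
    open scoped ComplexOrder in
    exact Matrix.rank_self_mul_conjTranspose (cutMatrix A Ω)
  have hJ := sum_negMulLog_le hρ.eigenvalues h0 h1
  rw [hrank] at hJ
  exact hJ

end Cut

end Vale.Agent.Lib.P356.H68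

namespace Vale.Agent.Lib.P356.H68.Check

open Matrix
open Vale.Agent.Lib.P356

section

variable {Λ : Type*} [Fintype Λ] [DecidableEq Λ] {q : ℕ}

example (A : Finset Λ) (Ω : Conf Λ q → ℂ) (hnorm : ∑ σ, ‖Ω σ‖ ^ 2 = 1) :
    entropy A Ω ≤ Real.log ((cutMatrix A Ω).rank : ℝ) :=
  Vale.Agent.Lib.P356.H68.entropy_le_log_rank A Ω hnorm

example {n : Type*} [Fintype n] (lam : n → ℝ) (h0 : ∀ i, 0 ≤ lam i)
    (h1 : ∑ i, lam i = 1) :
    ∑ i, Real.negMulLog (lam i) ≤ Real.log (Fintype.card {i // lam i ≠ 0}) :=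
  Vale.Agent.Lib.P356.H68.sum_negMulLog_le lam h0 h1

end

end Vale.Agent.Lib.P356.H68.Check
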